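import Vale.Agent.P166.Haar2.Tree.Array

/-! The identities force a synchronised tree: the module statement. -/

noncomputable section

open MeasureTheory ProbabilityTheory Filter
open scoped BigOperators NNReal ENNReal Topology

namespace Vale.Agent.P166.Haar2.TreeM

open Vale.Agent.P157.Parisi (IsPath Path)
open Vale.Agent.P168 (Shape shapeProb rbar tmat idRep IsTreeArray)
open Vale.Agent.P168.AssemblyMP (IsLevel shp shapeOf expo expo_pos expo_lt_one expo_strictMono
  shp_law exists_level measurableSet_shp measurable_rbar map_rbar)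

lemma abs_sub_clip_le {y z d : ℝ} (h0 : 0 ≤ y) (hd : y ≤ d) :
    |y - max 0 (min d z)| ≤ |y - z| := by
  refine abs_le.2 ⟨?_, ?_⟩
  · rcases le_total z 0 with hz | hz
    · rw [max_eq_left ((min_le_right d z).trans hz)]
      linarith [abs_nonneg (y - z)]
    · rw [max_eq_right (le_min (h0.trans hd) hz)]
      linarith [neg_abs_le (y - z), min_le_right d z]
  · rcases le_total d z with hz | hz
    · rw [min_eq_left hz, max_eq_right (h0.trans hd)]
      linarith [abs_nonneg (y - z)]
    · rw [min_eq_right hz]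
      linarith [le_max_right (0 : ℝ) z, le_abs_self (y - z)]

variable {G : ℕ} {μ : Measure (IArr G)}

/-- A block never exceeds its diagonal value. -/
lemma ae_le_diag (h : IsVLim μ) {g : Fin G} {d : ℝ}
    (hd : ∀ a, ∀ᵐ R ∂μ, (R a a g : ℝ) = d) (a b : ℕ) : ∀ᵐ R ∂μ, (R a b g : ℝ) ≤ d := by
  filter_upwards [h.psd g 2 ![a, b] ![1, -1], hd a, hd b, h.symm a b g] with R hR ha hb hs
  simp [Fin.sum_univ_two, ← hs, ha, hb] at hR
  linarith

/-- The tree of a limit array at precision `1 / (M + 1)`. -/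
theorem exists_tree {K : ℕ} {μ : Measure (IArr (K + 2))} (h : IsVLim μ) {ρ : ℝ}
    (hT : IsTreeArray (arrOfLim μ) ρ) (M : ℕ) :
    ∃ (ξ : Path) (e : Fin (K + 1) → El ξ.r) (lev : (Fin (K + 2) → ℝ) → Fin (ξ.r + 1)),
      Measurable lev ∧ (∀ k, (e k).IsCov ∧ (e k).s ≤ 1) ∧
      ∀ n : ℕ,
        (∀ v : Shape ξ.r n, μ.real {R | (fun a b : Fin n => if a = b then Fin.last ξ.r
            else lev (coeV (R (a : ℕ) (b : ℕ)))) = v} = shapeProb ξ.m n v) ∧
        ∀ᵐ R ∂μ, ∀ a b : Fin n,
          |(R (a : ℕ) (b : ℕ) 0 : ℝ) - (if a = b then 1 else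
              ξ.q (if a = b then Fin.last ξ.r else lev (coeV (R (a : ℕ) (b : ℕ)))))| ≤
            1 / ((M : ℝ) + 1) ∧
          ∀ k : Fin (K + 1),
            |(R (a : ℕ) (b : ℕ) k.succ : ℝ) - (if a = b then (e k).s else
              (e k).v (if a = b then Fin.last ξ.r else lev (coeV (R (a : ℕ) (b : ℕ)))))| ≤
              1 / ((M : ℝ) + 1) := by
  classical
  have := h.prob
  have := hT.prob
  set kk : ℝ := ((M : ℝ) + 1) * 2 ^ (K + 3) with hkk
  have hkk0 : 0 < kk := by positivity
  let ι : ℝ → ℤ := fun x => ⌊kk * x⌋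
  have hι : Monotone ι := fun x y hxy =>
    Int.floor_le_floor (mul_le_mul_of_nonneg_left hxy hkk0.le)
  obtain ⟨r, lev, cell, hl, -, hae⟩ := exists_level hT hι
  have hwit : ∀ p, ∃ x, lev x = p ∧ cell p = ι x := by
    intro p
    by_contra hno
    refine (hl.mass p).ne' ?_
    rw [← map_rbar hT.toIsGGArray zero_ne_one, map_measureReal_apply (measurable_rbar 0 1)
      (hl.meas (measurableSet_singleton p))]
    refine (measureReal_eq_zero_iff).2 (measure_eq_zero_iff_ae_notMem.2 ?_)
    filter_upwards [hae] with ω hω hmem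
    exact hno ⟨rbar 0 1 ω, hmem, by rw [← hω 0 1 zero_ne_one, (hmem : lev (rbar 0 1 ω) = p)]⟩
  choose x hx hcell using hwit
  have hxm : Monotone x := fun p p' hpp => not_lt.1 fun hlt => by
    have h1 := hl.mono hlt.le
    rw [hx, hx] at h1
    have h2 : p = p' := le_antisymm hpp h1
    exact hlt.ne (by rw [h2])
  choose ψ hlip hψm hψ using exists_sync hT
  choose d hd using h.diag
  have hd0 : d 0 = 1 := by
    obtain ⟨R, h1, h2⟩ := ((hd 0 0).and (h.diag_top 0 rfl 0)).exists
    exact h1.symm.trans h2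
  have hdb : ∀ g, 0 ≤ d g ∧ d g ≤ 1 := fun g => by
    obtain ⟨R, h1, h2⟩ := ((hd g 0).and (h.psd g 1 (fun _ => 0) fun _ => 1)).exists
    refine ⟨?_, h1 ▸ (R 0 0 g).2.2⟩
    simpa [h1] using h2
  let val : Fin (K + 2) → Fin (r + 1) → ℝ := fun g p => max 0 (min (d g) (ψ g (x p)))
  have hvm : ∀ g, Monotone (val g) := fun g p p' hpp =>
    max_le_max le_rfl (min_le_min le_rfl (hψm g (hxm hpp)))
  have hvle : ∀ g p, val g p ≤ d g := fun g p => max_le (hdb g).1 (min_le_left _ _)
  have hpath : IsPath (expo (arrOfLim μ) lev) (val 0) :=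
    ⟨expo_pos hT hl, expo_lt_one hT hl, expo_strictMono hT hl, hvm 0, le_max_left _ _,
      (hvle 0 _).trans hd0.le⟩
  refine ⟨⟨r, expo (arrOfLim μ) lev, val 0, hpath⟩, fun k => ⟨d k.succ, val k.succ⟩,
    fun z => lev (rb z), hl.meas.comp continuous_rb.measurable,
    fun k => ⟨⟨hvm _, le_max_left _ _, hvle _ _⟩, (hdb _).2⟩, fun n => ⟨fun v => ?_, ?_⟩⟩
  · refine Eq.trans ?_ (shp_law hT hl n v)
    refine Eq.trans ?_ (map_measureReal_apply measurable_mkArr (measurableSet_shp hl n v)).symm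
    congr 1
    ext R
    simp only [Set.mem_ofPred_eq, Set.mem_preimage]
    have e : shp lev n (mkArr R) = fun a b : Fin n => if a = b then Fin.last r
        else lev (rb (coeV (R (a : ℕ) (b : ℕ)))) := by
      funext a b
      simp only [shp, shapeOf, tmat, idRep, rbar_mk]
    rw [e]
  · have hrep : ∀ᵐ R ∂μ, ∀ a b : ℕ, a ≠ b →
        cell (lev (rbar a b (mkArr R))) = ι (rbar a b (mkArr R)) :=
      ae_of_ae_map measurable_mkArr.aemeasurable hae
    have hnn : ∀ᵐ R ∂μ, ∀ (a b : Fin n) (g : Fin (K + 2)), a ≠ b → 0 ≤ (R a b g : ℝ) := by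
      refine ae_all_iff.2 fun a => ae_all_iff.2 fun b => ae_all_iff.2 fun g => ?_
      by_cases hab : a = b
      · exact Eventually.of_forall fun R h => absurd hab h
      · exact (ae_nonneg h hT g (Fin.val_ne_of_ne hab)).mono fun R hR _ => hR
    have hle : ∀ᵐ R ∂μ, ∀ (a b : Fin n) (g : Fin (K + 2)), (R a b g : ℝ) ≤ d g :=
      ae_all_iff.2 fun a => ae_all_iff.2 fun b => ae_all_iff.2 fun g => ae_le_diag h (hd g) _ _
    have hdiag : ∀ᵐ R ∂μ, ∀ (a : Fin n) (g : Fin (K + 2)), (R a a g : ℝ) = d g :=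
      ae_all_iff.2 fun a => ae_all_iff.2 fun g => hd g a
    have hsync : ∀ᵐ R ∂μ, ∀ (g : Fin (K + 2)) (a b : ℕ),
        (R a b g : ℝ) = ψ g (rbar a b (mkArr R)) := ae_all_iff.2 hψ
    filter_upwards [hrep, hnn, hle, hdiag, hsync] with R hR hn hl' hdg hs a b
    suffices key : ∀ g, |(R (a : ℕ) (b : ℕ) g : ℝ) - (if a = b then d g else
        val g (lev (rb (coeV (R (a : ℕ) (b : ℕ))))))| ≤ 1 / ((M : ℝ) + 1) by
      by_cases hab : a = b
      · simp only [if_pos hab] at key ⊢
        exact ⟨by simpa only [hd0] using key 0, fun k => key k.succ⟩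
      · simp only [if_neg hab] at key ⊢
        exact ⟨key 0, fun k => key k.succ⟩
    intro g
    split_ifs with hab
    · subst hab
      rw [hdg a g, sub_self, abs_zero]
      positivity
    · rw [← rbar_mk]
      set y := rbar (a : ℕ) (b : ℕ) (mkArr R) with hy
      refine (abs_sub_clip_le (hn a b g hab) (hl' a b g)).trans ?_
      rw [hs g a b, ← hy, ← Real.dist_eq]
      refine ((hlip g).dist_le_mul y (x (lev y))).trans ?_
      have hc : ⌊kk * y⌋ = ⌊kk * x (lev y)⌋ :=
        (hR a b (Fin.val_ne_of_ne hab)).symm.trans (hcell (lev y))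
      have h1 : |kk * y - kk * x (lev y)| < 1 := Int.abs_sub_lt_one_of_floor_eq_floor hc
      rw [← mul_sub, abs_mul, abs_of_pos hkk0] at h1
      have h2 : (2 : ℝ) ^ (g.val + 1 + 1) ≤ 2 ^ (K + 3) :=
        pow_le_pow_right₀ one_le_two (by omega)
      have h3 : |y - x (lev y)| ≤ 1 / kk := by
        rw [le_div_iff₀ hkk0]
        linarith
      push_cast
      rw [Real.dist_eq]
      calc (2 : ℝ) ^ (g.val + 1 + 1) * |y - x (lev y)| ≤ 2 ^ (K + 3) * (1 / kk) :=
            mul_le_mul h2 h3 (abs_nonneg _) (by positivity)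
        _ = 1 / ((M : ℝ) + 1) := by rw [hkk]; field_simp

/-- The embedding of bounded arrays into arrays. -/
def toV (R : IArr G) : VArr G := fun a b g => R a b g

lemma measurableEmbedding_toV : MeasurableEmbedding (toV (G := G)) := by
  have hc : Continuous (toV (G := G)) :=
    continuous_pi fun a => continuous_pi fun b => continuous_pi fun g => continuous_entry a b g
  refine (hc.isClosedEmbedding fun R R' he => ?_).measurableEmbedding
  funext a b g
  exact Subtype.ext (congrFun (congrFun (congrFun he a) b) g)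

end Vale.Agent.P166.Haar2.TreeM

namespace Vale.Agent.P166.Haar2

/-- M11: asymptotic identities give a synchronised tree. -/
theorem tree : TreeStmt := by
  intro K A Q hQ hgg
  obtain ⟨φ, μ, hφ, hμ, hconv⟩ := TreeM.exists_vlim hQ hgg
  have := hμ.prob
  obtain ⟨ρ, hT⟩ := Vale.Agent.P168.Tree.tree_stmt _ (TreeM.isGGArray hμ)
  have hemb := TreeM.measurableEmbedding_toV (G := K + 2)
  refine ⟨φ, μ.map TreeM.toV, hφ,
    Measure.isProbabilityMeasure_map hemb.measurable.aemeasurable, fun n F hF => ?_, ?_,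
    fun M => ?_⟩
  · rw [hemb.integral_map]
    exact hconv n F hF
  · refine hemb.ae_map_iff.2 ?_
    filter_upwards [ae_all_iff.2 fun a => ae_all_iff.2 fun b => ae_all_iff.2 fun g =>
      hμ.symm a b g] with R hR a b g
    exact ⟨abs_le.2 (R a b g).2, congrArg Subtype.val (hR a b g)⟩
  · obtain ⟨ξ, e, lev, hlm, he, hn⟩ := TreeM.exists_tree hμ hT M
    refine ⟨ξ, e, lev, hlm, he, fun n sh hsh => ?_⟩
    subst hsh
    refine ⟨fun v => ?_, hemb.ae_map_iff.2 (hn n).2⟩
    rw [← (hn n).1 v, measureReal_def, measureReal_def, hemb.map_apply]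
    rfl

end Vale.Agent.P166.Haar2
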