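import Vale.Agent.P166.Haar2.Tree.Limit
import Vale.Agent.P168.Tree
import Vale.Agent.P168.AssemblyMP.Main

/-! A limit array of block overlaps is a tree array with nonnegative blocks. -/

noncomputable section

open MeasureTheory ProbabilityTheory Filter
open scoped BigOperators NNReal ENNReal Topology

namespace Vale.Agent.P166.Haar2.TreeM

open Vale.Agent.P168 (Arr Shape kWeight rbar tmat idRep overlapLaw IsGGArray IsTreeArray repData
  kvec permRep permSite rset spinProd spin)
open Vale.Agent.P168.AssemblyMP (IsLevel IsUltra shp shapeOf shp_pos measurableSet_shp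
  measurable_rbar measurable_rset map_rbar)

variable {G : ℕ}

/-- The overlaps of a pair as numbers. -/
def coeV (z : Vec G) : Fin G → ℝ := fun i => z i

lemma continuous_coeV : Continuous (coeV (G := G)) :=
  continuous_pi fun i => continuous_subtype_val.comp (continuous_apply i)

/-- The kernels of a pair: a constant and the blocks. -/
def kv (x : Fin G → ℝ) : ℕ → ℝ
  | 0 => 1
  | j + 1 => if h : j < G then x ⟨j, h⟩ else 0

lemma continuous_kv (g : ℕ) : Continuous fun x : Fin G → ℝ => kv x g := by
  cases g with
  | zero => exact continuous_const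
  | succ j => simp only [kv]; split_ifs <;> fun_prop

lemma kv_succ (x : Fin G → ℝ) (j : Fin G) : kv x (j.val + 1) = x j := by
  simp [kv, j.isLt]

/-- The master overlap of a pair. -/
def rb (x : Fin G → ℝ) : ℝ := 1 / 2 + ∑ j : Fin G, kWeight (j.val + 1) * x j

lemma continuous_rb : Continuous (rb (G := G)) := by
  unfold rb
  fun_prop

/-- The array of an array of block overlaps: trivial spins. -/
def mkArr (R : IArr G) : Arr := (fun _ _ => true, fun g a b => kv (coeV (R a b)) g)

lemma measurable_mkArr : Measurable (mkArr (G := G)) :=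
  measurable_const.prodMk <| measurable_pi_lambda _ fun g => measurable_pi_lambda _ fun a =>
    measurable_pi_lambda _ fun b =>
      ((continuous_kv g).comp (continuous_coeV.comp (continuous_pair a b))).measurable

lemma spinProd_mk (L : List ℕ) (i : ℕ) (R : IArr G) : spinProd L i (mkArr R) = 1 := by
  induction L with
  | nil => simp [spinProd]
  | cons a L ih =>
    simp only [spinProd, List.map_cons, List.prod_cons] at ih ⊢
    rw [ih]
    simp [mkArr, Vale.Agent.P168.spin]

lemma rset_mk (L : List ℕ) (R : IArr G) : rset L (mkArr R) = 1 := by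
  refine Tendsto.limsup_eq (tendsto_const_nhds.congr fun k => ?_)
  simp [spinProd_mk]

lemma rbar_mk (a b : ℕ) (R : IArr G) : rbar a b (mkArr R) = rb (coeV (R a b)) := by
  rw [rbar, tsum_eq_sum (s := Finset.range (G + 1)) fun g hg => ?_, Finset.sum_range_succ',
    Finset.sum_range, rb, add_comm]
  · congr 1
    · simp [mkArr, kv, kWeight]
    · exact Finset.sum_congr rfl fun j _ => by simp [mkArr, kv_succ]
  · obtain ⟨j, rfl⟩ : ∃ j, g = j + 1 := ⟨g - 1, by simp at hg; omega⟩
    simp only [Finset.mem_range, not_lt] at hg
    simp [mkArr, kv, show ¬ j < G by omega]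

/-- The law of the array of a limit. -/
def arrOfLim (μ : Measure (IArr G)) : Measure Arr := μ.map mkArr

variable {μ : Measure (IArr G)}

lemma ae_arr {p : Arr → Prop} (hm : MeasurableSet {ω | p ω}) (h : ∀ᵐ R ∂μ, p (mkArr R)) :
    ∀ᵐ ω ∂arrOfLim μ, p ω :=
  (ae_map_iff measurable_mkArr.aemeasurable hm).2 h

lemma measurable_kernel (g a b : ℕ) : Measurable fun ω : Arr => ω.2 g a b := by fun_prop

theorem isGGArray (h : IsVLim μ) : IsGGArray (arrOfLim μ) := by
  have := h.prob
  have hν : IsProbabilityMeasure (arrOfLim μ) :=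
    Measure.isProbabilityMeasure_map measurable_mkArr.aemeasurable
  refine
    { prob := hν
      exch_rep := fun π => ?_
      exch_site := fun π => ?_
      symm := fun g a b => ?_
      bound := fun g a b => ?_
      diag := fun g => ?_
      psd := fun g n c => ?_
      overlap_zero := fun a b => ?_
      magnetisation := ⟨1, fun a => ?_⟩
      gg := fun n hn F k hF hk hFb hkb => ?_ }
  · have hp : Measurable (permRep π) := by unfold permRep; fun_prop
    rw [arrOfLim, Measure.map_map hp measurable_mkArr]
    conv_rhs => rw [← h.perm π, Measure.map_map measurable_mkArr (continuous_permO π).measurable]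
    rfl
  · have hp : Measurable (permSite π) := by unfold permSite; fun_prop
    rw [arrOfLim, Measure.map_map hp measurable_mkArr]
    rfl
  · refine ae_arr (measurableSet_eq_fun (measurable_kernel g a b) (measurable_kernel g b a))
      ((ae_all_iff.2 fun i => h.symm a b i).mono fun R hR => ?_)
    simp [mkArr, show R a b = R b a from funext hR]
  · refine ae_arr (measurableSet_le (measurable_kernel g a b).abs measurable_const)
      (Eventually.of_forall fun R => ?_)
    show |kv (coeV (R a b)) g| ≤ 1
    cases g with
    | zero => simp [kv]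
    | succ j => simp only [kv]; split_ifs <;> simp [coeV, abs_le.2 (R a b _).2]
  · cases g with
    | zero =>
      exact ⟨1, fun a => ae_arr (measurableSet_eq_fun (measurable_kernel 0 a a) measurable_const)
        (Eventually.of_forall fun R => rfl)⟩
    | succ j =>
      by_cases hj : j < G
      · obtain ⟨d, hd⟩ := h.diag ⟨j, hj⟩
        exact ⟨d, fun a => ae_arr (measurableSet_eq_fun (measurable_kernel (j + 1) a a)
          measurable_const) ((hd a).mono fun R hR => by simp [mkArr, kv, hj, coeV, hR])⟩
      · exact ⟨0, fun a => ae_arr (measurableSet_eq_fun (measurable_kernel (j + 1) a a)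
          measurable_const) (Eventually.of_forall fun R => by simp [mkArr, kv, hj])⟩
  · refine ae_arr (measurableSet_le measurable_const (Finset.measurable_fun_sum _ fun a _ =>
      Finset.measurable_fun_sum _ fun b _ => (measurable_kernel g a b).const_mul (c a * c b))) ?_
    cases g with
    | zero =>
      refine Eventually.of_forall fun R => ?_
      simp only [mkArr, kv, mul_one, ← Finset.mul_sum, ← Finset.sum_mul]
      exact mul_self_nonneg _
    | succ j =>
      by_cases hj : j < G
      · filter_upwards [h.psd ⟨j, hj⟩ n (fun i => (i : ℕ)) c] with R hR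
        simpa [mkArr, kv, hj, coeV] using hR
      · exact Eventually.of_forall fun R => by simp [mkArr, kv, hj]
  · exact ae_arr (measurableSet_eq_fun (measurable_kernel 0 a b) (measurable_rset _))
      (Eventually.of_forall fun R => Eq.trans (by simp [mkArr, kv]) (rset_mk _ R).symm)
  · exact ae_arr (measurableSet_eq_fun (measurable_rset _) measurable_const)
      (Eventually.of_forall fun R => rset_mk _ R)
  · obtain ⟨m, rfl⟩ : ∃ m, n = m + 1 := ⟨n - 1, by omega⟩
    let F' : Blk (m + 1) G → ℝ := fun z => F (fun _ _ => true, fun g a b => kv (coeV (z a b)) g)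
    let k' : Vec G → ℝ := fun x => k (kv (coeV x))
    have hF' : Measurable F' := hF.comp (measurable_const.prodMk <| measurable_pi_lambda _ fun g =>
      measurable_pi_lambda _ fun a => measurable_pi_lambda _ fun b =>
        ((continuous_kv g).comp continuous_coeV).measurable.comp
          ((measurable_pi_apply b).comp (measurable_pi_apply a)))
    have hk' : Measurable k' := hk.comp (measurable_pi_lambda _ fun g =>
      ((continuous_kv g).comp continuous_coeV).measurable)
    have hrep : Measurable (repData (m + 1)) := by unfold repData; fun_prop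
    have hkv : ∀ b, Measurable (kvec 0 b) := fun b => by unfold kvec; fun_prop
    have e1 : ∀ b, ∫ ω, F (repData (m + 1) ω) * k (kvec 0 b ω) ∂arrOfLim μ =
        ∫ R, F' (blk (m + 1) R) * k' (R 0 b) ∂μ := fun b =>
      integral_map measurable_mkArr.aemeasurable
        ((hF.comp hrep).mul (hk.comp (hkv b))).aestronglyMeasurable
    have e2 : ∫ ω, F (repData (m + 1) ω) ∂arrOfLim μ = ∫ R, F' (blk (m + 1) R) ∂μ :=
      integral_map measurable_mkArr.aemeasurable (hF.comp hrep).aestronglyMeasurable
    have e3 : ∫ ω, k (kvec 0 1 ω) ∂arrOfLim μ = ∫ R, k' (R 0 1) ∂μ :=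
      integral_map measurable_mkArr.aemeasurable (hk.comp (hkv 1)).aestronglyMeasurable
    have := h.gg m F' k' hF' hk' (fun z => hFb _) (fun z => hkb _)
    rw [e2, e3, Finset.sum_Ico_eq_sum_range, Finset.sum_range]
    simp only [e1]
    push_cast
    rw [this]
    congr 1
    exact Finset.sum_congr rfl fun l _ => by rw [add_comm 1 (l : ℕ)]

/-- Every block is a monotone Lipschitz function of the master overlap. -/
theorem exists_sync {ρ : ℝ} (hT : IsTreeArray (arrOfLim μ) ρ) (g : Fin G) :
    ∃ φ : ℝ → ℝ, LipschitzWith ((2 : ℝ≥0) ^ (g.val + 1 + 1)) φ ∧ Monotone φ ∧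
      ∀ᵐ R ∂μ, ∀ a b, (R a b g : ℝ) = φ (rbar a b (mkArr R)) := by
  obtain ⟨φ, hlip, hmono, hφ⟩ := hT.sync (g.val + 1)
  refine ⟨φ, hlip, hmono, ae_all_iff.2 fun a => ae_all_iff.2 fun b => ?_⟩
  filter_upwards [ae_of_ae_map measurable_mkArr.aemeasurable (hφ a b)] with R hR
  simpa [mkArr, kv_succ, coeV] using hR

/-- Overlaps of every block are nonnegative. -/
theorem ae_nonneg (h : IsVLim μ) {ρ : ℝ} (hT : IsTreeArray (arrOfLim μ) ρ) (g : Fin G) {a b : ℕ}
    (hab : a ≠ b) : ∀ᵐ R ∂μ, 0 ≤ (R a b g : ℝ) := by
  have := h.prob
  have := hT.prob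
  suffices key : ∀ η : ℝ, 0 < η → ∀ᵐ R ∂μ, -η ≤ (R a b g : ℝ) by
    filter_upwards [ae_all_iff.2 fun k : ℕ => key (1 / ((k : ℝ) + 1)) (by positivity)] with R hR
    by_contra hn
    obtain ⟨k, hk⟩ := exists_nat_one_div_lt (show (0 : ℝ) < -(R a b g : ℝ) by linarith)
    linarith [hR k]
  intro η hη
  obtain ⟨φ, hlip, hmono, hsync⟩ := exists_sync hT g
  set S : Set ℝ := {x | φ x < -η} with hS
  have hSm : MeasurableSet S := measurableSet_lt hlip.continuous.measurable measurable_const
  have hlaw : ∀ (c d : ℕ), c ≠ d → ∀ s : Set ℝ, MeasurableSet s →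
      (overlapLaw (arrOfLim μ)).real s = μ.real {R | rbar c d (mkArr R) ∈ s} := fun c d hcd s hs => by
    rw [← map_rbar hT.toIsGGArray hcd, arrOfLim,
      Measure.map_map (measurable_rbar c d) measurable_mkArr,
      map_measureReal_apply ((measurable_rbar c d).comp measurable_mkArr) hs]
    rfl
  by_contra hbad
  have hA : 0 < (overlapLaw (arrOfLim μ)).real S := by
    rw [hlaw a b hab _ hSm]
    refine lt_of_le_of_ne measureReal_nonneg fun e => hbad ?_
    have : μ {R | rbar a b (mkArr R) ∈ S} = 0 := (measureReal_eq_zero_iff).1 e.symm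
    filter_upwards [measure_eq_zero_iff_ae_notMem.1 this, hsync] with R hR hs
    rw [hs a b]
    exact not_lt.1 hR
  obtain ⟨n, hn⟩ : ∃ n : ℕ, 1 < η * ((n : ℝ) - 1) := by
    obtain ⟨n, hn⟩ := exists_nat_gt (1 / η + 1)
    exact ⟨n, by rw [← div_lt_iff₀' hη]; linarith⟩
  obtain ⟨R, hpsd, hneg⟩ : ∃ R : IArr G, (0 ≤ ∑ c : Fin n, ∑ d : Fin n, (R c d g : ℝ)) ∧
      ∀ c d : Fin n, c ≠ d → (R c d g : ℝ) < -η := by
    have hpsd : ∀ᵐ R ∂μ, 0 ≤ ∑ c : Fin n, ∑ d : Fin n, (R c d g : ℝ) := by
      filter_upwards [h.psd g n (fun i => (i : ℕ)) fun _ => 1] with R hR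
      simpa using hR
    by_cases hB : (overlapLaw (arrOfLim μ)).real Sᶜ = 0
    · have hall : ∀ᵐ R ∂μ, ∀ c d : Fin n, c ≠ d → (R c d g : ℝ) < -η := by
        refine ae_all_iff.2 fun c => ae_all_iff.2 fun d => ?_
        by_cases hcd : c = d
        · exact Eventually.of_forall fun R h => absurd hcd h
        rw [hlaw c d (Fin.val_ne_of_ne hcd) _ hSm.compl, measureReal_eq_zero_iff] at hB
        filter_upwards [measure_eq_zero_iff_ae_notMem.1 hB, hsync] with R hR hs _
        rw [hs c d]
        exact Set.notMem_compl_iff.1 hR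
      exact (hpsd.and hall).exists
    · let lev : ℝ → Fin (1 + 1) := fun x => if φ x < -η then 0 else 1
      have hl : IsLevel (arrOfLim μ) lev := by
        refine ⟨fun x y hxy => ?_, Measurable.ite hSm measurable_const measurable_const,
          fun p => ?_⟩
        · simp only [lev]
          split_ifs with h1 h2
          · exact le_rfl
          · exact Fin.zero_le _
          · linarith [hmono hxy]
          · exact le_rfl
        · fin_cases p
          · refine lt_of_lt_of_eq hA (congrArg _ ?_)
            ext x
            simp only [lev, Set.mem_preimage, Set.mem_singleton_iff, hS, Set.mem_ofPred_eq]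
            split_ifs with h1 <;> simp [h1]
          · refine lt_of_lt_of_eq (lt_of_le_of_ne measureReal_nonneg (Ne.symm hB)) (congrArg _ ?_)
            ext x
            simp only [lev, Set.mem_preimage, Set.mem_singleton_iff, hS, Set.mem_compl_iff,
              Set.mem_ofPred_eq]
            split_ifs with h1 <;> simp [h1]
      let v : Shape 1 n := fun c d => if c = d then Fin.last 1 else 0
      have hv : IsUltra v := by
        refine ⟨fun c => if_pos rfl, fun c d => ?_, fun c d e => ?_⟩
        · simp only [v, eq_comm]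
        · simp only [v]
          split_ifs <;> simp_all
      have hpos := shp_pos hT hl n v hv
      rw [arrOfLim, map_measureReal_apply measurable_mkArr (measurableSet_shp hl n v)] at hpos
      by_contra hno
      refine hpos.ne' ((measureReal_eq_zero_iff).2 (measure_eq_zero_iff_ae_notMem.2 ?_))
      filter_upwards [hpsd, hsync] with R hR hs hmem
      refine hno ⟨R, hR, fun c d hcd => ?_⟩
      rw [hs c d]
      have e := congrFun (congrFun (hmem : shp lev n (mkArr R) = v) c) d
      simp only [shp, shapeOf, if_neg hcd, v, tmat, idRep, lev] at e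
      split_ifs at e with h1
      · exact h1
      · exact absurd e (by decide)
  have hle : ∑ c : Fin n, ∑ d : Fin n, (R c d g : ℝ) ≤
      ∑ c : Fin n, ∑ d : Fin n, if c = d then (1 : ℝ) else -η := by
    refine Finset.sum_le_sum fun c _ => Finset.sum_le_sum fun d _ => ?_
    split_ifs with h1
    · exact (R c d g).2.2
    · exact (hneg c d h1).le
  have hval : ∀ c : Fin n, (∑ d : Fin n, if c = d then (1 : ℝ) else -η) = 1 - η * ((n : ℝ) - 1) :=
    fun c => by
      have : ∀ d : Fin n, (if c = d then (1 : ℝ) else -η) = (if c = d then 1 + η else 0) - η :=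
        fun d => by split_ifs <;> ring
      simp only [this, Finset.sum_sub_distrib, Finset.sum_ite_eq, Finset.mem_univ, if_true]
      simp
      ring
  rw [Finset.sum_congr rfl fun c _ => hval c, Finset.sum_const, Finset.card_univ,
    Fintype.card_fin, nsmul_eq_mul] at hle
  have hn0 : (1 : ℝ) ≤ n := by
    by_contra hlt
    nlinarith
  nlinarith

end Vale.Agent.P166.Haar2.TreeM
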