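import Vale.Agent.P166.Haar2.Tree.Sample

/-! Limit arrays of block overlaps satisfying the identities. -/

noncomputable section

open MeasureTheory ProbabilityTheory Filter
open scoped BigOperators Topology

namespace Vale.Agent.P166.Haar2.TreeM

/-- Block overlaps of `n` replicas, as elements of `[-1, 1]`. -/
abbrev Blk (n G : ℕ) := Fin n → Fin n → Fin G → Set.Icc (-1 : ℝ) 1

/-- The overlaps of one pair of replicas. -/
abbrev Vec (G : ℕ) := Fin G → Set.Icc (-1 : ℝ) 1

variable {G : ℕ}

/-- The first corner of an array. -/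
def blk (n : ℕ) (R : IArr G) : Blk n G := fun a b => R a b

lemma continuous_blk (n : ℕ) : Continuous (blk (G := G) n) := by
  unfold blk
  fun_prop

lemma continuous_pair (a b : ℕ) : Continuous fun R : IArr G => R a b := by fun_prop

lemma continuous_entry (a b : ℕ) (g : Fin G) : Continuous fun R : IArr G => (R a b g : ℝ) :=
  continuous_subtype_val.comp ((continuous_apply g).comp (continuous_pair a b))

/-- A monomial of the overlaps of one pair. -/
def mon (e : Fin G → ℕ) : C(Vec G, ℝ) :=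
  ⟨fun x => ∏ g, (x g : ℝ) ^ e g,
    continuous_finsetProd _ fun g _ =>
      ((continuous_subtype_val.comp (continuous_apply g)).pow _)⟩

lemma integrable_cont {X : Type*} [TopologicalSpace X] [CompactSpace X] [MeasurableSpace X]
    [OpensMeasurableSpace X] {μ : Measure X} [IsFiniteMeasure μ] {f : X → ℝ} (hf : Continuous f) :
    Integrable f μ := by
  obtain ⟨C, hC⟩ := (isCompact_univ (X := X)).exists_bound_of_continuousOn hf.continuousOn
  exact Integrable.of_bound hf.measurable.aestronglyMeasurable C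
    (Eventually.of_forall fun x => hC x trivial)

lemma integrable_bdd {X : Type*} [MeasurableSpace X] {ρ : Measure X} [IsFiniteMeasure ρ]
    {f : X → ℝ} (hf : Measurable f) {C : ℝ} (h : ∀ x, |f x| ≤ C) : Integrable f ρ :=
  Integrable.of_bound hf.aestronglyMeasurable C
    (Eventually.of_forall fun x => (Real.norm_eq_abs _).trans_le (h x))

/-- A limit array: exchangeable, nonnegative definite, deterministic diagonal, exact identities. -/
structure IsVLim (μ : Measure (IArr G)) : Prop where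
  prob : IsProbabilityMeasure μ
  perm : ∀ π : Equiv.Perm ℕ, μ.map (permO π) = μ
  symm : ∀ a b g, ∀ᵐ R ∂μ, R a b g = R b a g
  diag : ∀ g, ∃ d : ℝ, ∀ a, ∀ᵐ R ∂μ, (R a a g : ℝ) = d
  diag_top : ∀ g : Fin G, g.val = 0 → ∀ a, ∀ᵐ R ∂μ, (R a a g : ℝ) = 1
  psd : ∀ g n, ∀ u : Fin n → ℕ, ∀ c : Fin n → ℝ,
    ∀ᵐ R ∂μ, 0 ≤ ∑ a, ∑ b, c a * c b * (R (u a) (u b) g : ℝ)
  gg : ∀ (n : ℕ) (F : Blk (n + 1) G → ℝ) (h : Vec G → ℝ), Measurable F → Measurable h →
    (∀ z, |F z| ≤ 1) → (∀ z, |h z| ≤ 1) →
    ((n : ℝ) + 1) * ∫ R, F (blk (n + 1) R) * h (R 0 (n + 1)) ∂μ =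
      (∫ R, F (blk (n + 1) R) ∂μ) * (∫ R, h (R 0 1) ∂μ) +
        ∑ l : Fin n, ∫ R, F (blk (n + 1) R) * h (R 0 (l + 1)) ∂μ

variable {μ : Measure (IArr G)}

/-- Two laws of a block and a pair agree if they agree on monomials of the pair. -/
lemma integral_eq_of_mon {X : Type*} [TopologicalSpace X] [CompactSpace X] [MeasurableSpace X]
    [BorelSpace X] [SecondCountableTopology X] {ρ₁ ρ₂ : Measure (X × Vec G)} [IsFiniteMeasure ρ₁]
    [IsFiniteMeasure ρ₂] {F : X → ℝ} (hF : Continuous F)
    (h : ∀ e, ∫ p, F p.1 * mon e p.2 ∂ρ₁ = ∫ p, F p.1 * mon e p.2 ∂ρ₂) (g : C(Vec G, ℝ)) :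
    ∫ p, F p.1 * g p.2 ∂ρ₁ = ∫ p, F p.1 * g p.2 ∂ρ₂ := by
  have hi : ∀ (ρ : Measure (X × Vec G)) [IsFiniteMeasure ρ] (g : C(Vec G, ℝ)),
      Integrable (fun p => F p.1 * g p.2) ρ := fun ρ _ g =>
    integrable_cont ((hF.comp continuous_fst).mul (g.continuous.comp continuous_snd))
  have hcont : ∀ (ρ : Measure (X × Vec G)) [IsFiniteMeasure ρ],
      Continuous fun g : C(Vec G, ℝ) => ∫ p, F p.1 * g p.2 ∂ρ := fun ρ _ => by
    obtain ⟨C, hC⟩ := (isCompact_univ (X := X)).exists_bound_of_continuousOn hF.continuousOn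
    refine continuous_iff_continuousAt.2 fun g₀ => continuousAt_of_dominated
      (bound := fun _ => max C 0 * (‖g₀‖ + 1))
      (Eventually.of_forall fun g => (hi ρ g).aestronglyMeasurable) ?_ (integrable_const _)
      (Eventually.of_forall fun p =>
        ((continuous_eval_const p.2).continuousAt).const_mul (F p.1))
    filter_upwards [(continuous_norm.tendsto g₀).eventually (eventually_le_nhds
      (lt_add_one ‖g₀‖))] with g hg
    refine Eventually.of_forall fun p => ?_
    rw [norm_mul]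
    exact mul_le_mul ((hC _ trivial).trans (le_max_left _ _))
      ((g.norm_coe_le_norm _).trans hg) (norm_nonneg _) (le_max_right _ _)
  let Z : Submodule ℝ C(Vec G, ℝ) :=
    { carrier := {g | ∫ p, F p.1 * g p.2 ∂ρ₁ = ∫ p, F p.1 * g p.2 ∂ρ₂}
      zero_mem' := by simp
      add_mem' := fun {a b} ha hb => by
        simp only [Set.mem_ofPred_eq, ContinuousMap.add_apply, mul_add] at ha hb ⊢
        rw [integral_add (hi ρ₁ a) (hi ρ₁ b), integral_add (hi ρ₂ a) (hi ρ₂ b), ha, hb]
      smul_mem' := fun c a ha => by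
        simp only [Set.mem_ofPred_eq, ContinuousMap.smul_apply, smul_eq_mul,
          mul_left_comm _ c] at ha ⊢
        rw [integral_const_mul, integral_const_mul, ha] }
  have hZ : IsClosed (Z : Set C(Vec G, ℝ)) := isClosed_eq (hcont ρ₁) (hcont ρ₂)
  let coord : Fin G → C(Vec G, ℝ) := fun i =>
    ⟨fun x => (x i : ℝ), continuous_subtype_val.comp (continuous_apply i)⟩
  set A := Algebra.adjoin ℝ (Set.range coord) with hA
  have hsep : A.SeparatesPoints := fun x y hxy => by
    obtain ⟨i, hi⟩ := Function.ne_iff.1 hxy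
    exact ⟨_, ⟨coord i, Algebra.subset_adjoin ⟨i, rfl⟩, rfl⟩, fun he => hi (Subtype.ext he)⟩
  have hmon : ∀ f ∈ Submonoid.closure (Set.range coord), ∃ e, f = mon e := by
    intro f hf
    induction hf using Submonoid.closure_induction with
    | mem f hf =>
      obtain ⟨i, rfl⟩ := hf
      refine ⟨Pi.single i 1, ContinuousMap.ext fun x => ?_⟩
      simp [mon, coord, Pi.single_apply, pow_ite, Finset.prod_ite_eq']
    | one => exact ⟨0, ContinuousMap.ext fun x => by simp [mon]⟩
    | mul f f' _ _ hf hf' =>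
      obtain ⟨e, rfl⟩ := hf
      obtain ⟨e', rfl⟩ := hf'
      exact ⟨e + e', ContinuousMap.ext fun x => by
        simp [mon, pow_add, Finset.prod_mul_distrib]⟩
  have hsub : (A : Set C(Vec G, ℝ)) ⊆ Z := by
    intro f hf
    have hf' : f ∈ Subalgebra.toSubmodule A := hf
    rw [hA, Algebra.adjoin_eq_span] at hf'
    refine Submodule.span_le.2 (fun f hf => ?_) hf'
    obtain ⟨e, rfl⟩ := hmon f hf
    exact h e
  have htop := ContinuousMap.subalgebra_topologicalClosure_eq_top_of_separatesPoints A hsep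
  have hg : g ∈ A.topologicalClosure := by rw [htop]; trivial
  exact closure_minimal hsub hZ hg

/-- The identities extend from monomials to all bounded measurable functions. -/
lemma gg_extend [IsProbabilityMeasure μ] (n : ℕ)
    (hmon : ∀ F : Blk (n + 1) G → ℝ, Continuous F → ∀ e : Fin G → ℕ,
      ((n : ℝ) + 1) * ∫ R, F (blk (n + 1) R) * mon e (R 0 (n + 1)) ∂μ =
        (∫ R, F (blk (n + 1) R) ∂μ) * (∫ R, mon e (R 0 1) ∂μ) +
          ∑ l : Fin n, ∫ R, F (blk (n + 1) R) * mon e (R 0 (l + 1)) ∂μ)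
    {F : Blk (n + 1) G → ℝ} {h : Vec G → ℝ} (hF : Measurable F) (hh : Measurable h)
    (hFb : ∀ z, |F z| ≤ 1) (hhb : ∀ z, |h z| ≤ 1) :
    ((n : ℝ) + 1) * ∫ R, F (blk (n + 1) R) * h (R 0 (n + 1)) ∂μ =
      (∫ R, F (blk (n + 1) R) ∂μ) * (∫ R, h (R 0 1) ∂μ) +
        ∑ l : Fin n, ∫ R, F (blk (n + 1) R) * h (R 0 (l + 1)) ∂μ := by
  set Φ := blk (G := G) (n + 1)
  have hΦ : Continuous Φ := continuous_blk _
  set ρ₁ : Measure (Blk (n + 1) G × Vec G) :=
    ∑ _i : Fin (n + 1), μ.map fun R => (Φ R, R 0 (n + 1)) with hρ₁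
  set ρ₂ : Measure (Blk (n + 1) G × Vec G) :=
    (μ.map Φ).prod (μ.map fun R => R 0 1) + ∑ l : Fin n, μ.map fun R => (Φ R, R 0 (l + 1)) with hρ₂
  have hm : ∀ b : ℕ, Measurable fun R : IArr G => (Φ R, R 0 b) := fun b =>
    hΦ.measurable.prodMk (continuous_pair 0 b).measurable
  have hm1 : Measurable fun R : IArr G => R 0 1 := (continuous_pair 0 1).measurable
  have : IsProbabilityMeasure (μ.map Φ) :=
    Measure.isProbabilityMeasure_map hΦ.measurable.aemeasurable
  have : IsProbabilityMeasure (μ.map fun R : IArr G => R 0 1) :=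
    Measure.isProbabilityMeasure_map hm1.aemeasurable
  have hval : ∀ (f : Blk (n + 1) G → ℝ) (g : Vec G → ℝ) (Cf Cg : ℝ), Measurable f →
      Measurable g → (∀ z, |f z| ≤ Cf) → (∀ z, |g z| ≤ Cg) →
      (∫ p, f p.1 * g p.2 ∂ρ₁ = ((n : ℝ) + 1) * ∫ R, f (Φ R) * g (R 0 (n + 1)) ∂μ) ∧
        ∫ p, f p.1 * g p.2 ∂ρ₂ = (∫ R, f (Φ R) ∂μ) * (∫ R, g (R 0 1) ∂μ) +
          ∑ l : Fin n, ∫ R, f (Φ R) * g (R 0 (l + 1)) ∂μ := by
    intro f g Cf Cg hf hg hfb hgb
    have hfg : Measurable fun p : Blk (n + 1) G × Vec G => f p.1 * g p.2 :=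
      (hf.comp measurable_fst).mul (hg.comp measurable_snd)
    have hb : ∀ p : Blk (n + 1) G × Vec G, |f p.1 * g p.2| ≤ Cf * Cg := fun p => by
      rw [abs_mul]
      exact mul_le_mul (hfb _) (hgb _) (abs_nonneg _) ((abs_nonneg _).trans (hfb p.1))
    have hmap : ∀ b : ℕ, ∫ p, f p.1 * g p.2 ∂μ.map (fun R => (Φ R, R 0 b)) =
        ∫ R, f (Φ R) * g (R 0 b) ∂μ := fun b =>
      integral_map (hm b).aemeasurable hfg.aestronglyMeasurable
    refine ⟨?_, ?_⟩
    · rw [hρ₁, integral_finsetSum_measure fun i _ => integrable_bdd hfg hb]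
      simp [hmap]
    · rw [hρ₂, integral_add_measure (integrable_bdd hfg hb) (integrable_bdd hfg hb),
        integral_finsetSum_measure fun i _ => integrable_bdd hfg hb, integral_prod_mul,
        integral_map hΦ.measurable.aemeasurable hf.aestronglyMeasurable,
        integral_map hm1.aemeasurable hg.aestronglyMeasurable]
      simp [hmap]
  have hmone : ∀ (e : Fin G → ℕ) (z : Vec G), |mon e z| ≤ ‖mon e‖ := fun e z =>
    (Real.norm_eq_abs _).symm.trans_le ((mon e).norm_coe_le_norm z)
  have heq : ρ₁ = ρ₂ := by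
    refine Measure.ext_of_integral_mul_boundedContinuousFunction fun f g => ?_
    refine integral_eq_of_mon f.continuous (fun e => ?_) g.toContinuousMap
    obtain ⟨a, b⟩ := hval f (mon e) ‖f‖ ‖mon e‖ f.continuous.measurable
      (mon e).continuous.measurable
      (fun z => (Real.norm_eq_abs _).symm.trans_le (f.norm_coe_le_norm z)) (hmone e)
    rw [a, b]
    exact hmon f f.continuous e
  obtain ⟨a, b⟩ := hval F h 1 1 hF hh hFb hhb
  rw [← a, heq, b]

theorem exists_vlim {K : ℕ} {A : Atoms K} {Q : SysSeq K} (hQ : Q.Std A) (hgg : Q.GG) :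
    ∃ (φ : ℕ → ℕ) (μ : Measure (IArr (K + 2))), StrictMono φ ∧ IsVLim μ ∧
      ∀ (n : ℕ) (F : (Fin (K + 2) → Fin n → Fin n → ℝ) → ℝ), Continuous F →
        Tendsto (fun j => Q.mean (φ j) n F) atTop
          (𝓝 (∫ R, F (fun g a b => (R (a : ℕ) (b : ℕ) g : ℝ)) ∂μ)) := by
  let law : ℕ → Measure (IArr (K + 2)) := fun j =>
    arrLaw (Q.sys j) (Vale.Agent.P157.Parisi.scale (Q.N j)) (Q.x j) (Q.B j)
  let xs : ℕ → ProbabilityMeasure (IArr (K + 2)) := fun j => ⟨law j, isProb_arrLaw _ _ _ _⟩
  obtain ⟨μ', φ, hφ, hlim'⟩ := CompactSpace.tendsto_subseq xs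
  set μ : Measure (IArr (K + 2)) := (μ' : Measure (IArr (K + 2))) with hμ
  have hlim : ∀ f : IArr (K + 2) → ℝ, Continuous f →
      Tendsto (fun j => ∫ R, f R ∂law (φ j)) atTop (𝓝 (∫ R, f R ∂μ)) := fun f hf =>
    (ProbabilityMeasure.tendsto_iff_forall_integral_tendsto.1 hlim')
      (BoundedContinuousFunction.mkOfCompact ⟨f, hf⟩)
  have hprob : IsProbabilityMeasure μ := μ'.2
  have hν : ∀ j, (Q.sys j).ν = (Q.N j : ℝ) := fun j => rfl
  have habs : ∀ j U g (σ τ : Vale.Agent.P157.Parisi.Cube (Q.N j)), |(Q.sys j).ov U g σ τ| ≤ 1 :=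
    fun j => abs_ov_le _ (hν j).ge
  have hmean : ∀ (j n : ℕ) (Φ : IArr (K + 2) → ℝ), Continuous Φ →
      ∀ F : (Fin (K + 2) → Fin n → Fin n → ℝ) → ℝ,
      (∀ q, Φ (sampleMap (Q.sys j) (Vale.Agent.P157.Parisi.scale (Q.N j)) (Q.x j) (Q.B j) q) =
        F ((Q.sys j).ovs q.1.1 fun l : Fin n =>
          reps (Q.sys j) (Vale.Agent.P157.Parisi.scale (Q.N j)) (Q.x j) (Q.B j) q l)) →
      ∫ R, Φ R ∂law j = Q.mean j n F := fun j n Φ hΦ F hF =>
    integral_arr _ _ _ _ hΦ (e := fun l : Fin n => (l : ℕ)) Fin.val_injective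
      (fun U σ => F ((Q.sys j).ovs U σ)) hF
  have haezero : ∀ f : IArr (K + 2) → ℝ, Continuous f → (∀ R, 0 ≤ f R) →
      Tendsto (fun j => ∫ R, f R ∂law (φ j)) atTop (𝓝 0) → ∀ᵐ R ∂μ, f R = 0 := fun f hf h0 h =>
    (integral_eq_zero_iff_of_nonneg h0 (integrable_cont hf)).1
      (tendsto_nhds_unique (hlim f hf) h)
  have hzero : ∀ f : IArr (K + 2) → ℝ, Continuous f →
      (∀ j q, f (sampleMap (Q.sys j) (Vale.Agent.P157.Parisi.scale (Q.N j)) (Q.x j) (Q.B j) q) = 0) →
      Tendsto (fun j => ∫ R, f R ∂law (φ j)) atTop (𝓝 0) := fun f hf h => by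
    refine tendsto_const_nhds.congr fun j => ?_
    simp only [law, arrLaw, integral_map (measurable_sampleMap _ _ _ _).aemeasurable
      hf.measurable.aestronglyMeasurable, h, integral_zero]
  have hperm : ∀ π : Equiv.Perm ℕ, μ.map (permO π) = μ := fun π => by
    have : IsProbabilityMeasure (μ.map (permO π)) :=
      Measure.isProbabilityMeasure_map (continuous_permO π).measurable.aemeasurable
    refine ext_of_forall_integral_eq_of_IsFiniteMeasure fun f => ?_
    rw [integral_map (continuous_permO π).measurable.aemeasurable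
      f.continuous.measurable.aestronglyMeasurable]
    refine tendsto_nhds_unique (hlim _ (f.continuous.comp (continuous_permO π)))
      ((hlim _ f.continuous).congr fun j => ?_)
    conv_lhs => rw [show law (φ j) = _ from (arrLaw_perm _ _ _ _ π).symm]
    exact integral_map (continuous_permO π).measurable.aemeasurable
      f.continuous.measurable.aestronglyMeasurable
  have hrot : ∀ {P : IArr (K + 2) → Prop} (π : Equiv.Perm ℕ), (∀ᵐ R ∂μ, P R) →
      ∀ᵐ R ∂μ, P (permO π R) := fun π h => by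
    rw [← hperm π] at h
    exact ae_of_ae_map (continuous_permO π).measurable.aemeasurable h
  refine ⟨φ, μ, hφ, ⟨hprob, hperm, fun a b g => ?_, fun g => ?_, fun g hg a => ?_,
    fun g n u c => ?_, ?_⟩, ?_⟩
  · have hc : Continuous fun R : IArr (K + 2) => |(R a b g : ℝ) - R b a g| :=
      ((continuous_entry a b g).sub (continuous_entry b a g)).abs
    refine (haezero _ hc (fun R => abs_nonneg _) (hzero _ hc fun j q => ?_)).mono fun R hR =>
      Subtype.ext (sub_eq_zero.1 (abs_eq_zero.1 hR))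
    simp [sampleMap, ov_comm]
  · set d := ∫ R, (R 0 0 g : ℝ) ∂μ with hd
    refine ⟨d, fun a => ?_⟩
    have hc : Continuous fun R : IArr (K + 2) => |(R 0 0 g : ℝ) - d| :=
      ((continuous_entry 0 0 g).sub continuous_const).abs
    have h00 : ∀ᵐ R ∂μ, (R 0 0 g : ℝ) = d := by
      refine (haezero _ hc (fun R => abs_nonneg _) ?_).mono fun R hR =>
        sub_eq_zero.1 (abs_eq_zero.1 hR)
      set m := fun j => Q.mean j 1 (fun R => R g 0 0)
      have hm : ∀ j, ∫ R, (R 0 0 g : ℝ) ∂law j = m j := fun j =>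
        hmean j 1 _ (continuous_entry 0 0 g) _ fun q => toI_coe (habs _ _ _ _ _)
      have hlm : Tendsto (fun j => |m (φ j) - d|) atTop (𝓝 0) := by
        have := ((hlim _ (continuous_entry 0 0 g)).congr fun j => hm (φ j)).sub
          (tendsto_const_nhds (x := d))
        simpa [← hd] using this.abs
      have hself := (hgg.self g).comp hφ.tendsto_atTop
      refine squeeze_zero (fun j => integral_nonneg fun R => abs_nonneg _) (fun j => ?_)
        (show Tendsto (fun j => Q.mean (φ j) 1 (fun R => |R g 0 0 - m (φ j)|) + |m (φ j) - d|)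
          atTop (𝓝 0) by simpa using hself.add hlm)
      have hc' : Continuous fun R : IArr (K + 2) => |(R 0 0 g : ℝ) - m (φ j)| :=
        ((continuous_entry 0 0 g).sub continuous_const).abs
      rw [← hmean (φ j) 1 _ hc' (fun R => |R g 0 0 - m (φ j)|)
        fun q => by simp [sampleMap, Sys.ovs, toI_coe (habs _ _ _ _ _)]]
      refine (integral_mono (μ := law (φ j)) (integrable_cont hc)
        ((integrable_cont hc').add (integrable_const _))
        fun R => abs_sub_le _ (m (φ j)) _).trans_eq ?_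
      simp [integral_add (integrable_cont hc') (integrable_const _)]
    exact (hrot (Equiv.swap 0 a) h00).mono fun R hR => by simpa [permO] using hR
  · have hc : Continuous fun R : IArr (K + 2) => |(R a a g : ℝ) - 1| :=
      ((continuous_entry a a g).sub continuous_const).abs
    refine (haezero _ hc (fun R => abs_nonneg _) (hzero _ hc fun j q => ?_)).mono fun R hR =>
      sub_eq_zero.1 (abs_eq_zero.1 hR)
    obtain rfl : g = 0 := Fin.ext hg
    simp only [sampleMap]
    rw [toI_coe (habs _ _ _ _ _), ov_self_univ (hν j) (hQ.pos j) (by simp [SysSeq.sys, stdSys])]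
    simp
  · have hc : Continuous fun R : IArr (K + 2) =>
        max 0 (-∑ a : Fin n, ∑ b : Fin n, c a * c b * (R (u a) (u b) g : ℝ)) :=
      continuous_const.max (Continuous.neg (continuous_finsetSum _ fun a _ =>
        continuous_finsetSum _ fun b _ => (continuous_entry (u a) (u b) g).const_mul _))
    refine (haezero _ hc (fun R => le_max_left _ _) (hzero _ hc fun j q => ?_)).mono fun R hR => ?_
    · refine max_eq_left (neg_nonpos.2 ?_)
      simp only [sampleMap, toI_coe (habs _ _ _ _ _)]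
      exact ov_psd (hν j) _ g _ c
    · have := le_max_right (0 : ℝ)
        (-∑ a : Fin n, ∑ b : Fin n, c a * c b * (R (u a) (u b) g : ℝ))
      linarith
  · intro n F h hF hh hFb hhb
    refine gg_extend n (fun F hF e => ?_) hF hh hFb hhb
    let F' : (Fin (K + 2) → Fin (n + 1) → Fin (n + 1) → ℝ) → ℝ :=
      fun R => F fun a b g => toI (R g a b)
    have hF' : Continuous F' := hF.comp (continuous_pi fun a => continuous_pi fun b =>
      continuous_pi fun g => continuous_toI.comp ((continuous_apply b).comp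
        ((continuous_apply a).comp (continuous_apply g))))
    have hFc : Continuous fun R : IArr (K + 2) => F (blk (n + 1) R) :=
      hF.comp (continuous_blk _)
    have hmc : ∀ b, Continuous fun R : IArr (K + 2) => mon e (R 0 b) := fun b =>
      (mon e).continuous.comp (continuous_pair 0 b)
    have h1 := hlim _ (hFc.fun_mul (hmc (n + 1)))
    have h2 := (hlim _ hFc).mul (hlim _ (hmc 1))
    have h3 := tendsto_finsetSum (Finset.univ : Finset (Fin n)) fun l _ =>
      hlim _ (hFc.fun_mul (hmc (l + 1)))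
    refine sub_eq_zero.1 (tendsto_nhds_unique ((h1.const_mul ((n : ℝ) + 1)).sub (h2.add h3)) ?_)
    refine ((hgg.ident n e F' hF').comp hφ.tendsto_atTop).congr fun j => ?_
    simp only [Function.comp_apply]
    rw [hmean _ (n + 2) _ (hFc.fun_mul (hmc (n + 1)))
        (fun R => F' (fun g a b => R g a.castSucc b.castSucc) *
          ∏ g, R g 0 (Fin.last (n + 1)) ^ e g)
        fun q => by simp only [F', mon, sampleMap, Sys.ovs, ContinuousMap.coe_mk, toI_coe (habs _ _ _ _ _)]; rfl,
      hmean _ (n + 1) _ hFc F' fun q => by simp [F', Sys.ovs]; rfl,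
      hmean _ 2 _ (hmc 1) (fun R => ∏ g, R g 0 1 ^ e g)
        fun q => by simp [mon, sampleMap, Sys.ovs, toI_coe (habs _ _ _ _ _)]]
    congr 1
    refine congrArg _ (Finset.sum_congr rfl fun l _ => Eq.symm ?_)
    exact hmean _ (n + 1) _ (hFc.fun_mul (hmc (l + 1)))
      (fun R => F' R * ∏ g, R g 0 l.succ ^ e g)
      fun q => by simp only [F', mon, sampleMap, Sys.ovs, ContinuousMap.coe_mk, toI_coe (habs _ _ _ _ _)]; rfl
  · intro n F hF
    have hc : Continuous fun R : IArr (K + 2) => F fun g a b => (R (a : ℕ) (b : ℕ) g : ℝ) :=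
      hF.comp (continuous_pi fun g => continuous_pi fun a => continuous_pi fun b =>
        continuous_entry a b g)
    refine (hlim _ hc).congr fun j => hmean _ n _ hc F fun q => congrArg F ?_
    funext g a b
    exact toI_coe (habs _ _ _ _ _)

end Vale.Agent.P166.Haar2.TreeM
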