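import Vale.Agent.P166.Haar2.Statements
import Vale.Agent.P166.Haar2.Basic
import Vale.Agent.P168.Limit.Avg

/-! The array of block overlaps of independent replicas of a system. -/

noncomputable section

open MeasureTheory ProbabilityTheory Filter
open scoped BigOperators Topology

namespace Vale.Agent.P166.Haar2.TreeM

open Vale.Agent.P168 (unif)
open Vale.Agent.P168.Limit (samp gw rav measurable_samp unif_map_samp gw_nonneg sum_gw)
open Vale.Agent.P157.Parisi (Cube)

/-- Arrays of block overlaps with values in `[-1, 1]`. -/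
abbrev IArr (G : ℕ) := ℕ → ℕ → Fin G → Set.Icc (-1 : ℝ) 1

/-- A number as an element of `[-1, 1]`. -/
def toI (x : ℝ) : Set.Icc (-1 : ℝ) 1 := Set.projIcc (-1) 1 (by norm_num) x

lemma toI_coe {x : ℝ} (h : |x| ≤ 1) : (toI x : ℝ) = x := by
  rw [toI, Set.projIcc_of_mem _ (show x ∈ Set.Icc (-1 : ℝ) 1 from abs_le.1 h)]

lemma toI_val (x : Set.Icc (-1 : ℝ) 1) : toI (x : ℝ) = x := Set.projIcc_val _ _

lemma continuous_toI : Continuous toI := continuous_projIcc (h := by norm_num)

variable {N G L : ℕ}

lemma ov_comm (P : Sys N G) (U : OG N) (g : Fin G) (σ τ : Cube N) :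
    P.ov U g σ τ = P.ov U g τ σ := by
  simp only [Sys.ov, mul_comm]

lemma ov_self_univ {P : Sys N G} (hν : P.ν = N) (hN : 0 < N) {g : Fin G}
    (hg : P.S g = Finset.univ) (U : OG N) (σ : Cube N) : P.ov U g σ σ = 1 := by
  simp only [Sys.ov, hg, hν, ← sq, sum_rot_sq]
  exact div_self (by exact_mod_cast hN.ne')

lemma ov_psd {P : Sys N G} (hν : P.ν = N) (U : OG N) (g : Fin G) {n : ℕ} (σ : Fin n → Cube N)
    (c : Fin n → ℝ) : 0 ≤ ∑ a, ∑ b, c a * c b * P.ov U g (σ a) (σ b) := by
  have h : ∑ a, ∑ b, c a * c b * P.ov U g (σ a) (σ b) =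
      (∑ i ∈ P.S g, (∑ a, c a * rot U (σ a) i) ^ 2) / P.ν := by
    have e : ∀ i, (∑ a, c a * rot U (σ a) i) ^ 2 =
        ∑ a, ∑ b, c a * c b * (rot U (σ a) i * rot U (σ b) i) := fun i => by
      rw [sq, Finset.sum_mul_sum]
      exact Finset.sum_congr rfl fun a _ => Finset.sum_congr rfl fun b _ => by ring
    simp only [e, Sys.ov, mul_div_assoc', ← Finset.sum_div, Finset.mul_sum]
    congr 1
    conv_rhs => rw [Finset.sum_comm]
    refine Finset.sum_congr rfl fun a _ => ?_
    rw [Finset.sum_comm]
  rw [h, hν]
  exact div_nonneg (Finset.sum_nonneg fun i _ => sq_nonneg _) (Nat.cast_nonneg _)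

/-- The law of infinitely many uniform variables. -/
def uLaw : Measure (ℕ → ℝ) := Measure.infinitePi fun _ => unif

instance : IsProbabilityMeasure uLaw := by unfold uLaw; infer_instance

variable (P : Sys N G) (s : ℝ) (x : Fin L → ℝ) (B : RBase N)

/-- Replicas drawn from uniform variables. -/
def reps (q : Dz G L B × (ℕ → ℝ)) (a : ℕ) : Cube N := samp (gw (P.ham s x B q.1)) (q.2 a)

/-- Their block overlaps. -/
def sampleMap (q : Dz G L B × (ℕ → ℝ)) : IArr G :=
  fun a b g => toI (P.ov q.1.1 g (reps P s x B q a) (reps P s x B q b))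

/-- The law of the array of block overlaps. -/
def arrLaw : Measure (IArr G) := ((dzLaw G L B).prod uLaw).map (sampleMap P s x B)

lemma measurable_gw (σ : Cube N) : Measurable fun z : Dz G L B => gw (P.ham s x B z) σ :=
  (measurable_ham P s x B σ).exp.div
    (Finset.measurable_sum _ fun τ _ => (measurable_ham P s x B τ).exp)

lemma measurable_reps (a : ℕ) : Measurable fun q => reps P s x B q a := by
  have h : Measurable fun p : Dz G L B × ℝ => samp (gw (P.ham s x B p.1)) p.2 :=
    measurable_samp (X := Cube N) (Ω := Dz G L B) (w := fun z => gw (P.ham s x B z))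
      (fun σ => measurable_gw P s x B σ) fun z σ => gw_nonneg _ σ
  have hp : Measurable fun q : Dz G L B × (ℕ → ℝ) => (q.1, q.2 a) :=
    measurable_fst.prodMk ((measurable_pi_apply a).comp measurable_snd)
  exact Measurable.comp (g := fun p : Dz G L B × ℝ => samp (gw (P.ham s x B p.1)) p.2)
    (f := fun q : Dz G L B × (ℕ → ℝ) => (q.1, q.2 a)) h hp

lemma measurable_ov_reps (g : Fin G) (a b : ℕ) :
    Measurable fun q : Dz G L B × (ℕ → ℝ) =>
      P.ov q.1.1 g (reps P s x B q a) (reps P s x B q b) := by
  have h : Measurable fun p : OG N × (Cube N × Cube N) => P.ov p.1 g p.2.1 p.2.2 :=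
    measurable_from_prod_countable_left fun y => (continuous_ov P g y.1 y.2).measurable
  exact Measurable.comp (g := fun p : OG N × (Cube N × Cube N) => P.ov p.1 g p.2.1 p.2.2)
    (f := fun q : Dz G L B × (ℕ → ℝ) => (q.1.1, reps P s x B q a, reps P s x B q b)) h
    ((measurable_fst.comp measurable_fst).prodMk
      ((measurable_reps P s x B a).prodMk (measurable_reps P s x B b)))

lemma measurable_sampleMap : Measurable (sampleMap P s x B) := by
  refine measurable_pi_lambda _ fun a => measurable_pi_lambda _ fun b =>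
    measurable_pi_lambda _ fun g => ?_
  exact continuous_toI.measurable.comp
    (measurable_ov_reps P s x B g a b)

instance isProb_arrLaw : IsProbabilityMeasure (arrLaw P s x B) :=
  Measure.isProbabilityMeasure_map (measurable_sampleMap P s x B).aemeasurable

/-- A function of the array reading finitely many replicas. -/
lemma integral_arr {Φ : IArr G → ℝ} (hΦ : Continuous Φ) {n : ℕ} {e : Fin n → ℕ}
    (he : Function.Injective e) (F : OG N → (Fin n → Cube N) → ℝ)
    (h : ∀ q, Φ (sampleMap P s x B q) = F q.1.1 fun l => reps P s x B q (e l)) :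
    ∫ R, Φ R ∂arrLaw P s x B = ∫ z, rav n (P.ham s x B z) (F z.1) ∂dzLaw G L B := by
  rw [arrLaw, integral_map (measurable_sampleMap P s x B).aemeasurable
    hΦ.measurable.aestronglyMeasurable]
  obtain ⟨C, hC⟩ := (isCompact_univ (X := IArr G)).exists_bound_of_continuousOn hΦ.continuousOn
  have hi : Integrable (fun q => Φ (sampleMap P s x B q)) ((dzLaw G L B).prod uLaw) :=
    Integrable.of_bound (hΦ.measurable.comp (measurable_sampleMap P s x B)).aestronglyMeasurable C
      (Eventually.of_forall fun q => hC _ trivial)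
  rw [integral_prod _ hi]
  refine integral_congr_ae (Eventually.of_forall fun z => ?_)
  simp only [h, reps]
  set w := gw (P.ham s x B z)
  have hw : ∀ σ, 0 ≤ w σ := fun σ => gw_nonneg _ σ
  have hms : Measurable (samp w) :=
    (measurable_samp (Ω := Unit) (w := fun _ => w) (fun _ => measurable_const)
      fun _ => hw).comp ((measurable_const : Measurable fun _ : ℝ => ()).prodMk measurable_id)
  have hm1 : Measurable fun (u : ℕ → ℝ) (i : Fin n) => u (e i) := by fun_prop
  have hm2 : Measurable fun (v : Fin n → ℝ) (i : Fin n) => samp w (v i) :=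
    measurable_pi_lambda _ fun i => hms.comp (measurable_pi_apply i)
  have : IsProbabilityMeasure (unif.map (samp w)) :=
    Measure.isProbabilityMeasure_map hms.aemeasurable
  have hmap : (Measure.pi fun _ : Fin n => unif).map (fun v i => samp w (v i))
      = Measure.pi fun _ : Fin n => unif.map (samp w) :=
    Measure.pi_map_pi (μ := fun _ : Fin n => unif) (f := fun _ => samp w)
      fun _ => hms.aemeasurable
  have h1 := Measure.map_infinitePi_infinitePi_of_inj (P := fun _ : ℕ => unif) (f := e) he
  rw [Measure.infinitePi_eq_pi (μ := fun _ : Fin n => unif)] at h1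
  have e2 : ∫ u, F z.1 (fun i => samp w (u (e i))) ∂uLaw
      = ∫ σ, F z.1 σ ∂Measure.pi fun _ : Fin n => unif.map (samp w) := by
    rw [← hmap, integral_map hm2.aemeasurable (measurable_of_finite _).aestronglyMeasurable, ← h1,
      integral_map hm1.aemeasurable]
    · rfl
    · exact ((measurable_of_finite (F z.1)).comp hm2).aestronglyMeasurable
  rw [e2, integral_fintype Integrable.of_finite]
  refine Finset.sum_congr rfl fun σ _ => ?_
  rw [smul_eq_mul]
  congr 1
  rw [measureReal_def, Measure.pi_singleton, ENNReal.toReal_prod]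
  exact Finset.prod_congr rfl fun i _ => unif_map_samp hw (sum_gw _) (σ i)

/-- Renaming replicas. -/
def permO (π : Equiv.Perm ℕ) (R : IArr G) : IArr G := fun a b => R (π a) (π b)

lemma continuous_permO (π : Equiv.Perm ℕ) : Continuous (permO (G := G) π) := by
  unfold permO
  fun_prop

lemma arrLaw_perm (π : Equiv.Perm ℕ) :
    (arrLaw P s x B).map (permO π) = arrLaw P s x B := by
  have hu : MeasurePreserving (fun u : ℕ → ℝ => fun l => u (π l)) uLaw uLaw :=
    ⟨by fun_prop, Measure.map_infinitePi_infinitePi_of_inj (P := fun _ : ℕ => unif) π.injective⟩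
  have h := (MeasurePreserving.id (dzLaw G L B)).prod hu
  have hm := measurable_sampleMap P s x B
  rw [arrLaw, Measure.map_map (continuous_permO π).measurable hm]
  conv_rhs => rw [← h.map_eq, Measure.map_map hm h.measurable]
  rfl

end Vale.Agent.P166.Haar2.TreeM
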